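import Vale.Agent.P269.G2I.BSpec1
import Vale.Agent.P269.G2I.H302.DG
/-!
# [G2-D] all insertions, even dimension: leaves
-/

namespace Vale.Agent.P269.G2

open Finset.HasAntidiagonal (antidiagonal)
open Vale.Agent.P269.CI
open Vale.Agent.P269.G1 (toSer Sym Big)
open Vale.Agent.P269.H597 (coh)

variable {X : CompleteIntersection} {n : ℕ} (E : Fam X n) {F : ℕ → ℕ → List (Ins X) → ℂ}

/-- **[DG]** -/
theorem bDO_add (i : Fin n) (a b : OB X n) : dB i (a + b) = dB i a + dB i b := by
  apply H302.DG.bDO_add <;> assumption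

/-- **[DG]** -/
theorem bDO_mul (i : Fin n) (a b : OB X n) : dB i (a * b) = dB i a * b + a * dB i b := by
  apply H302.DG.bDO_mul <;> assumption

/-- **[DG]** -/
theorem bDO_smul (i : Fin n) (r : RB n) (a : OB X n) :
    dB i (r • a) = MvPowerSeries.pderiv (PowerSeries ℂ) i r • a + r • dB i a := by
  apply H302.DG.bDO_smul <;> assumption

/-- **[DG]** -/
theorem bD_act (i : Fin n) (a : OB X n) (x : Ix X → RB n) (b : Ix X) :
    MvPowerSeries.pderiv (PowerSeries ℂ) i (actB X n a x b) = actB X n (dB i a) x b +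
      actB X n a (fun c => MvPowerSeries.pderiv (PowerSeries ℂ) i (x c)) b := by
  apply H302.DG.bD_act <;> assumption

/-- **[DG]** -/
theorem bstr_comm (a b : OB X n) : strB X n (a * b) = strB X n (b * a) := by
  apply H302.DG.bstr_comm <;> assumption

/-- **[DG]** -/
theorem bD_str (i : Fin n) (a : OB X n) :
    MvPowerSeries.pderiv (PowerSeries ℂ) i (strB X n a) = strB X n (dB i a) := by
  apply H302.DG.bD_str <;> assumption

/-- **[DG]** -/
theorem bDO_mu (i : Fin n) : dB i (muB X n) = 0 := by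
  apply H302.DG.bDO_mu <;> assumption

/-- **[DG]** -/
theorem bDO_R (i : Fin n) : dB i (RBcl X n) = 0 := by
  apply H302.DG.bDO_R <;> assumption

/-- **[DG]** -/
theorem bw_zero (b : Ix X) : wB E F (E.i0 b) 0 = Pi.single b 1 := by
  apply H302.DG.bw_zero <;> assumption

/-- **[DG]** -/
theorem bw_succ (b : Ix X) (l : ℕ) : wB E F (E.i0 b) (l + 1) = 0 := by
  apply H302.DG.bw_succ <;> assumption

/-! ### the vectors `l_k τ` -/

end Vale.Agent.P269.G2
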