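import Vale.Agent.P269.G2I.BSpec1
import Vale.Agent.P269.G2I.H980.CorOne
/-!
# [G2-D] all insertions, even dimension: leaves
-/

namespace Vale.Agent.P269.G2

open Finset.HasAntidiagonal (antidiagonal)
open Vale.Agent.P269.CI
open Vale.Agent.P269.G1 (toSer Sym Big)
open Vale.Agent.P269.H597 (coh)

variable {X : CompleteIntersection} {n : ℕ} (E : Fam X n) {F : ℕ → ℕ → List (Ins X) → ℂ}

/-- **[DB5]** topological recursion in genus one -/
theorem cor_one_big (hF : IsGW X F) (he : Even X.dim) (h1 : Trr1 F) (i : Fin n) :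
    sr E (cor F 1 [E.e i]) = GB E F (wB E F i 0) +
      (1 / 24 : ℚ) • strB X n (CB E F (wB E F i 1)) := by
  apply H980.DB3.cor_one_big <;> assumption

/-- **[DB5']** the same for an arbitrary level -/
theorem cor_one_lev (hF : IsGW X F) (he : Even X.dim) (h1 : Trr1 F) (b : Ix X) (m : ℕ) :
    sr E (cor F 1 [(b, m)]) = GB E F (fun c => SB E F m c b) +
      if m = 0 then 0 else (1 / 24 : ℚ) • strB X n (CB E F fun c => SB E F (m - 1) c b) := by
  apply H980.DB3.cor_one_lev <;> assumption

/-! ### the vectors `l_k τ` -/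

end Vale.Agent.P269.G2
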