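import Vale.Agent.P269.G2I.BSpec1
import Vale.Agent.P269.G2I.H302.DH
/-!
# [G2-D] all insertions, even dimension: leaves
-/

namespace Vale.Agent.P269.G2

open Finset.HasAntidiagonal (antidiagonal)
open Vale.Agent.P269.CI
open Vale.Agent.P269.G1 (toSer Sym Big)
open Vale.Agent.P269.H597 (coh)

variable {X : CompleteIntersection} {n : ℕ} (E : Fam X n) {F : ℕ → ℕ → List (Ins X) → ℂ}

/-- **[DH]** from `dB_SB` -/
theorem bD_w (hF : IsGW X F) (he : Even X.dim) (i j : Fin n) (l : ℕ) (b : Ix X) :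
    MvPowerSeries.pderiv (PowerSeries ℂ) i (wB E F j l b) =
      actB X n (CB E F (wB E F i 0)) (wB E F j (l + 1)) b := by
  apply H302.bD_w <;> assumption

/-- **[DH]** from `bD_w` -/
theorem bD_g (hF : IsGW X F) (he : Even X.dim) (i : Fin n) (j : ℕ) (b : Ix X) :
    MvPowerSeries.pderiv (PowerSeries ℂ) i (gB E F (j + 1) b) =
      actB X n (CB E F (wB E F i 0)) (gB E F (j + 2)) b - wB E F i (j + 1) b := by
  apply H302.bD_g <;> assumption

/-- **[DH]** from `dB_SB` -/
theorem bDO_U (hF : IsGW X F) (he : Even X.dim) (i : Fin n) : dB i (UB E F) =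
    CB E F (wB E F i 0) + CB E F (wB E F i 0) * muB X n -
      muB X n * CB E F (wB E F i 0) := by
  apply H302.bDO_U <;> assumption

/-- **[DH]** from `dB_SB` and `pderiv_comm` -/
theorem bC_symm (hF : IsGW X F) (he : Even X.dim) (i j : Fin n) :
    dB i (CB E F (wB E F j 0)) = dB j (CB E F (wB E F i 0)) := by
  apply H302.bC_symm <;> assumption

/-- **[DH]** from `cor_one_big` -/
theorem bG_symm (hF : IsGW X F) (he : Even X.dim) (h1 : Trr1 F) (i j : Fin n) :
    MvPowerSeries.pderiv (PowerSeries ℂ) i (GB E F (wB E F j 0) +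
      (1 / 24 : ℚ) • strB X n (CB E F (wB E F j 1))) =
    MvPowerSeries.pderiv (PowerSeries ℂ) j (GB E F (wB E F i 0) +
      (1 / 24 : ℚ) • strB X n (CB E F (wB E F i 1))) := by
  apply H302.bG_symm <;> assumption

/-! ### the vectors `l_k τ` -/

end Vale.Agent.P269.G2
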