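import Vale.Agent.P269.G2I.BSpec1
import Vale.Agent.P269.G2I.H980.GString
/-!
# [G2-D] all insertions, even dimension: leaves
-/

namespace Vale.Agent.P269.G2

open Finset.HasAntidiagonal (antidiagonal)
open Vale.Agent.P269.CI
open Vale.Agent.P269.G1 (toSer Sym Big)
open Vale.Agent.P269.H597 (coh)

variable {X : CompleteIntersection} {n : ℕ} (E : Fam X n) {F : ℕ → ℕ → List (Ins X) → ℂ}

/-- **[DB3]** string equation, differentiated twice -/
theorem CB_g (hF : IsGW X F) (he : Even X.dim) : CB E F (gB E F 1) = 1 := by
  apply H980.DB3.CB_g <;> assumption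

/-- **[DB3]** string equation, differentiated once -/
theorem g_zero (hF : IsGW X F) (he : Even X.dim) : gB E F 0 = 0 := by
  apply H980.DB3.g_zero <;> assumption

/-! ### the vectors `l_k τ` -/

end Vale.Agent.P269.G2
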