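import Vale.Agent.P269.G2I.BSpec1
import Vale.Agent.P269.G2I.H780.CU
/-!
# [G2-D] all insertions, even dimension: leaves
-/

namespace Vale.Agent.P269.G2

open Finset.HasAntidiagonal (antidiagonal)
open Vale.Agent.P269.CI
open Vale.Agent.P269.G1 (toSer Sym Big)
open Vale.Agent.P269.H597 (coh)

variable {X : CompleteIntersection} {n : ℕ} (E : Fam X n) {F : ℕ → ℕ → List (Ins X) → ℂ}

/-- **[DB4b]** algebra from `SB_euler`, `g_zero`, `CB_g`, `CB_comm` -/
theorem CB_U (hF : IsGW X F) (he : Even X.dim) :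
    CB E F (actB X n (UB E F) (gB E F 1)) = UB E F := by
  apply H780.H513.CB_U <;> assumption

/-! ### the vectors `l_k τ` -/

end Vale.Agent.P269.G2
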