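import Vale.Agent.P269.G2I.BSpec1
import Vale.Agent.P269.G2I.H598.M1
import Vale.Agent.P269.G2I.Model1
/-!
# The full small phase space in even dimension
-/

namespace Vale.Agent.P269.G2

open Finset.HasAntidiagonal (antidiagonal)
open Vale.Agent.P269.CI
open Vale.Agent.P269.G1 (toSer kk DD aK Big Frob)
open Vale.Agent.P269.H597 (coh)

variable {X : CompleteIntersection} {F : ℕ → ℕ → List (Ins X) → ℂ}

/-- **[M1]** -/
theorem qc_comm (hF : IsGW X F) (he : Even X.dim) (a b c : Ix X) : qc F a b c = qc F b a c := by
  apply H598.qc_comm <;> assumption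

/-- **[M1]** WDVV -/
theorem qc_assoc (hF : IsGW X F) (he : Even X.dim) (i j l m : Ix X) :
    ∑ k, qc F i j k * qc F k l m = ∑ k, qc F j l k * qc F i k m := by
  apply H598.qc_assoc <;> assumption

/-- **[M1]** string equation -/
theorem qc_unit (hF : IsGW X F) (he : Even X.dim) (j k : Ix X) :
    qc F (one X) j k = if j = k then 1 else 0 := by
  apply H598.qc_unit <;> assumption

variable (hF : IsGW X F) (he : Even X.dim)

end Vale.Agent.P269.G2
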