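import Vale.Agent.P269.G2I.BSpec1
import Vale.Agent.P269.G2I.H302.M23
import Vale.Agent.P269.G2I.Model1
import Vale.Agent.P269.G2I.Model2
/-!
# The full small phase space in even dimension
-/

namespace Vale.Agent.P269.G2

open Finset.HasAntidiagonal (antidiagonal)
open Vale.Agent.P269.CI
open Vale.Agent.P269.G1 (toSer kk DD aK Big Frob)
open Vale.Agent.P269.H597 (coh)

variable {X : CompleteIntersection} {F : ℕ → ℕ → List (Ins X) → ℂ}

variable (hF : IsGW X F) (he : Even X.dim)

/-- **[M2]** elementary rules -/
theorem der_add_left (x y : AM hF he) (f : RM X) :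
    der hF he (x + y) f = der hF he x f + der hF he y f := by
  apply H302.M23.der_add_left <;> assumption

/-- **[M2]** -/
theorem der_smul_left (g : RM X) (x : AM hF he) (f : RM X) :
    der hF he (g • x) f = g * der hF he x f := by
  apply H302.M23.der_smul_left <;> assumption

/-- **[M2]** -/
theorem der_add (x : AM hF he) (f g : RM X) :
    der hF he x (f + g) = der hF he x f + der hF he x g := by
  apply H302.M23.der_add <;> assumption

/-- **[M2]** -/
theorem der_mul (x : AM hF he) (f g : RM X) :
    der hF he x (f * g) = der hF he x f * g + f * der hF he x g := by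
  apply H302.M23.der_mul <;> assumption

/-- **[M2]** -/
theorem der_rat (x : AM hF he) (c : ℚ) (f : RM X) :
    der hF he x (c • f) = c • der hF he x f := by
  apply H302.M23.der_rat <;> assumption

/-- **[M2]** -/
theorem nab_add_left (x y z : AM hF he) :
    nab hF he (x + y) z = nab hF he x z + nab hF he y z := by
  apply H302.M23.nab_add_left <;> assumption

/-- **[M2]** -/
theorem nab_smul_left (g : RM X) (x z : AM hF he) :
    nab hF he (g • x) z = g • nab hF he x z := by
  apply H302.M23.nab_smul_left <;> assumption

/-- **[M2]** -/
theorem nab_add (x y z : AM hF he) : nab hF he x (y + z) = nab hF he x y + nab hF he x z := by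
  apply H302.M23.nab_add <;> assumption

/-- **[M2]** -/
theorem nab_smul (x : AM hF he) (g : RM X) (z : AM hF he) :
    nab hF he x (g • z) = der hF he x g • z + g • nab hF he x z := by
  apply H302.M23.nab_smul <;> assumption

/-- **[M2]** -/
theorem nab_one (x : AM hF he) : nab hF he x 1 = 0 := by
  apply H302.M23.nab_one <;> assumption

/-- **[M2]** -/
theorem der_comm (x y : AM hF he) (f : RM X) :
    der hF he x (der hF he y f) - der hF he y (der hF he x f) =
      der hF he (nab hF he x y - nab hF he y x) f := by
  apply H302.M23.der_comm <;> assumption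

/-- **[M2]** -/
theorem d_one : dd hF he 1 = 0 := by
  apply H302.M23.d_one <;> assumption

/-- **[M2]** -/
theorem nab_d (x y : AM hF he) : nab hF he x (dd hF he y) = dd hF he (nab hF he x y) := by
  apply H302.M23.nab_d <;> assumption

/-- **[M2]** -/
theorem nab_E (x : AM hF he) : nab hF he x (EM hF he) = x - dd hF he x := by
  apply H302.M23.nab_E <;> assumption

/-- **[M3]** -/
theorem c4_symm (x y z : AM hF he) : nab hF he x (y * z) - nab hF he x y * z -
    y * nab hF he x z = nab hF he y (x * z) - nab hF he y x * z - x * nab hF he y z := by
  apply H302.M23.c4_symm <;> assumption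

/-- **[M3]** -/
theorem c5_symm (w x y z : AM hF he) :
    nab hF he w (nab hF he x (y * z) - nab hF he x y * z - y * nab hF he x z)
      - (nab hF he (nab hF he w x) (y * z) - nab hF he (nab hF he w x) y * z
        - y * nab hF he (nab hF he w x) z)
      - (nab hF he x (nab hF he w y * z) - nab hF he x (nab hF he w y) * z
        - nab hF he w y * nab hF he x z)
      - (nab hF he x (y * nab hF he w z) - nab hF he x y * nab hF he w z
        - y * nab hF he x (nab hF he w z)) =
    nab hF he x (nab hF he w (y * z) - nab hF he w y * z - y * nab hF he w z)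
      - (nab hF he (nab hF he x w) (y * z) - nab hF he (nab hF he x w) y * z
        - y * nab hF he (nab hF he x w) z)
      - (nab hF he w (nab hF he x y * z) - nab hF he w (nab hF he x y) * z
        - nab hF he x y * nab hF he w z)
      - (nab hF he w (y * nab hF he x z) - nab hF he w y * nab hF he x z
        - y * nab hF he w (nab hF he x z)) := by
  apply H302.M23.c5_symm <;> assumption

end Vale.Agent.P269.G2
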