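import Vale.Agent.P269.G2I.BSpec1
import Vale.Agent.P269.G2I.H598.C46
import Vale.Agent.P269.G2I.Model1
import Vale.Agent.P269.G2I.Model2
/-!
# The full small phase space in even dimension
-/

namespace Vale.Agent.P269.G2

open Finset.HasAntidiagonal (antidiagonal)
open Vale.Agent.P269.CI
open Vale.Agent.P269.G1 (toSer kk DD aK Big Frob)
open Vale.Agent.P269.H597 (coh)

variable {X : CompleteIntersection} {F : ℕ → ℕ → List (Ins X) → ℂ}

variable (hF : IsGW X F) (he : Even X.dim)

/-- **[M4]** from the grading equation -/
theorem c4_E (x y : AM hF he) : nab hF he x (EM hF he * y) - nab hF he x (EM hF he) * y -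
    EM hF he * nab hF he x y = x * dd hF he y + y * dd hF he x - dd hF he (x * y) := by
  apply H598.C46.c4_E <;> assumption

/-- **[M6]** -/
theorem G_symm (x y : AM hF he) : der hF he x (GG hF he y) - GG hF he (nab hF he x y) =
    der hF he y (GG hF he x) - GG hF he (nab hF he y x) := by
  apply H598.C46.G_symm <;> assumption

/-- **[M6]** string equation -/
theorem G_one : GG hF he 1 = 0 := by
  apply H598.C46.G_one <;> assumption

/-- **[M6]** grading and divisor equation -/
theorem G_E : GG hF he (EM hF he) =
    cb (nx X) (-(index X : ℂ) / 24 * (deg X * chernCoeff X (X.dim - 1))) := by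
  apply H598.C46.G_E <;> assumption

/-- **[M6]** -/
theorem der_cb (x : AM hF he) (c : ℂ) : der hF he x (cb (nx X) c) = 0 := by
  apply H598.C46.der_cb <;> assumption

end Vale.Agent.P269.G2
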