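import Vale.Agent.P269.G2I.BSpec1
import Vale.Agent.P269.G2I.H302.M5
import Vale.Agent.P269.G2I.Model1
import Vale.Agent.P269.G2I.Model2
/-!
# The full small phase space in even dimension
-/

namespace Vale.Agent.P269.G2

open Finset.HasAntidiagonal (antidiagonal)
open Vale.Agent.P269.CI
open Vale.Agent.P269.G1 (toSer kk DD aK Big Frob)
open Vale.Agent.P269.H597 (coh)

variable {X : CompleteIntersection} {F : ℕ → ℕ → List (Ins X) → ℂ}

variable (hF : IsGW X F) (he : Even X.dim)

/-- **[M5]** -/
theorem nabO_add (x : AM hF he) (a b : OB X (nx X)) :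
    nabO hF he x (a + b) = nabO hF he x a + nabO hF he x b := by
  apply H302.M5.nabO_add <;> assumption

/-- **[M5]** -/
theorem nabO_mul (x : AM hF he) (a b : OB X (nx X)) :
    nabO hF he x (a * b) = nabO hF he x a * b + a * nabO hF he x b := by
  apply H302.M5.nabO_mul <;> assumption

/-- **[M5]** -/
theorem nabO_smul (x : AM hF he) (g : RM X) (a : OB X (nx X)) :
    nabO hF he x (g • a) = der hF he x g • a + g • nabO hF he x a := by
  apply H302.M5.nabO_smul <;> assumption

/-- **[M5]** -/
theorem nabO_mu (x : AM hF he) : nabO hF he x (muB X (nx X)) = 0 := by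
  apply H302.M5.nabO_mu <;> assumption

/-- **[M5]** -/
theorem nabO_U (x : AM hF he) : nabO hF he x (QA.mat _ (EM hF he)) =
    QA.mat _ x + QA.mat _ x * muB X (nx X) - muB X (nx X) * QA.mat _ x := by
  apply H302.M5.nabO_U <;> assumption

/-- **[M5]** -/
theorem c4O_symm (x y : AM hF he) :
    nabO hF he x (QA.mat _ y) - QA.mat _ (nab hF he x y) =
      nabO hF he y (QA.mat _ x) - QA.mat _ (nab hF he y x) := by
  apply H302.M5.c4O_symm <;> assumption

/-- **[M5]** -/
theorem str_comm (a b : OB X (nx X)) : strB X (nx X) (a * b) = strB X (nx X) (b * a) := by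
  apply H302.M5.str_comm <;> assumption

/-- **[M5]** -/
theorem der_str (x : AM hF he) (a : OB X (nx X)) :
    der hF he x (strB X (nx X) a) = strB X (nx X) (nabO hF he x a) := by
  apply H302.M5.der_str <;> assumption

end Vale.Agent.P269.G2
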