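import Vale.Agent.P269.G2I.BSpec1
import Vale.Agent.P269.G2I.H598.Ya
import Vale.Agent.P269.G2I.Model1
import Vale.Agent.P269.G2I.XSpec1
/-!
# From the full small phase space to the top row: leaves
-/

namespace Vale.Agent.P269.G2

open Finset.HasAntidiagonal (antidiagonal)
open Polynomial (aeval)
open Vale.Agent.P269.CI
open Vale.Agent.P269.G1 (RR ser cst lamc Eu lam AA cq)
open Vale.Agent.P269.G2.H333 (ev0)
open Vale.Agent.P269.G2.H984 (RF rhoc dP)

variable {X : CompleteIntersection} {F : ℕ → ℕ → List (Ins X) → ℂ}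

/-- **[Ya]** -/
theorem phi_pd (b : Ix X) (f : RM X) :
    phi X (pd b f) = MvPowerSeries.pderiv (PowerSeries ℂ) b (phi X f) := by
  apply H598.phi_pd <;> assumption

/-- **[Ya]** -/
theorem phi_X (b : Ix X) : phi X (MvPowerSeries.X ((E0 X).i0 b)) = MvPowerSeries.X b := by
  apply H598.phi_X <;> assumption

/-- **[Ya]** -/
theorem phi_smul (c : ℂ) (f : RM X) : phi X (c • f) = c • phi X f := by
  apply H598.phi_smul <;> assumption

/-- **[Ya]** -/
theorem phi_inj (f : RM X) (h : phi X f = 0) : f = 0 := by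
  apply H598.phi_inj <;> assumption

end Vale.Agent.P269.G2
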