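import Vale.Agent.P269.G2I.BSpec1
import Vale.Agent.P269.G2I.H861.Yb
import Vale.Agent.P269.G2I.Model1
import Vale.Agent.P269.G2I.XSpec1
/-!
# From the full small phase space to the top row: leaves
-/

namespace Vale.Agent.P269.G2

open Finset.HasAntidiagonal (antidiagonal)
open Polynomial (aeval)
open Vale.Agent.P269.CI
open Vale.Agent.P269.G1 (RR ser cst lamc Eu lam AA cq)
open Vale.Agent.P269.G2.H333 (ev0)
open Vale.Agent.P269.G2.H984 (RF rhoc dP)

variable {X : CompleteIntersection} {F : ℕ → ℕ → List (Ins X) → ℂ}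

/-- **[Yb]** restriction of a function given by its coefficients -/
theorem ev0_phi_sr (A : ℕ → List (Ins X) → ℂ) (hA : SymF (E0 X) A) :
    ev0 (phi X (sr (E0 X) A)) = ser A := by
  apply H861.ev0_phi_sr <;> assumption

/-- **[Yb]** the derivatives at the origin -/
theorem origin_sr (A : ℕ → List (Ins X) → ℂ) (hA : SymF (E0 X) A) (w : List X.Prim) :
    MvPowerSeries.constantCoeff (dP w (phi X (sr (E0 X) A))) =
      PowerSeries.mk fun d => A d (w.map fun v => (Sum.inr v, 0)) := by
  apply H861.origin_sr <;> assumption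

/-- **[Yb]** from `coeff_zero_of_dl` -/
theorem list_zero (A : ℕ → List (Ins X) → ℂ) (hA : SymF (E0 X) A) (N0 : ℕ)
    (h : ∀ w : List X.Prim, w.length ≤ N0 → ev0 (dP w (phi X (sr (E0 X) A))) = 0)
    (d : ℕ) (L : List (Ix X)) (hL : (L.countP fun a => a.isRight) ≤ N0) :
    A d (L.map fun a => (a, 0)) = 0 := by
  apply H861.list_zero <;> assumption

end Vale.Agent.P269.G2
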