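import Vale.Agent.P269.G2I.BSpec1
import Vale.Agent.P269.G2I.H333.YC
import Vale.Agent.P269.G2I.Model1
import Vale.Agent.P269.G2I.XSpec1
/-!
# From the full small phase space to the top row: leaves
-/

namespace Vale.Agent.P269.G2

open Finset.HasAntidiagonal (antidiagonal)
open Polynomial (aeval)
open Vale.Agent.P269.CI
open Vale.Agent.P269.G1 (RR ser cst lamc Eu lam AA cq)
open Vale.Agent.P269.G2.H333 (ev0)
open Vale.Agent.P269.G2.H984 (RF rhoc dP)

variable {X : CompleteIntersection} {F : ℕ → ℕ → List (Ins X) → ℂ}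

/-- **[Yc]** -/
theorem ev0_qc_inl (hF : IsGW X F) (he : Even X.dim) (i j k : Fin (X.dim + 1)) :
    ev0 (phi X (qc F (Sum.inl i) (Sum.inl j) (Sum.inl k))) = G1.qc F i j k := by
  apply H333.ev0_qc_inl <;> assumption

/-- **[Yc]** -/
theorem ev0_qc_inr (hF : IsGW X F) (he : Even X.dim) (h1 : IsGenusOne F)
    (i j : Fin (X.dim + 1)) (b : X.Prim) :
    ev0 (phi X (qc F (Sum.inl i) (Sum.inl j) (Sum.inr b))) = 0 := by
  apply H333.ev0_qc_inr <;> assumption

/-- **[Yc]** -/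
theorem ev0_qc_mix (hF : IsGW X F) (he : Even X.dim) (h1 : IsGenusOne F)
    (i j : Fin (X.dim + 1)) (b : X.Prim) :
    ev0 (phi X (qc F (Sum.inl i) (Sum.inr b) (Sum.inl j))) = 0 := by
  apply H333.ev0_qc_mix <;> assumption

/-- **[Yc]** -/
theorem ev0_qc_two (hF : IsGW X F) (he : Even X.dim) (h1 : IsGenusOne F)
    (i : Fin (X.dim + 1)) (u b : X.Prim) :
    ev0 (phi X (qc F (Sum.inl i) (Sum.inr u) (Sum.inr b))) =
      if u = b then lamc h1 i else 0 := by
  apply H333.ev0_qc_two <;> assumption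

/-- **[Yc]** -/
theorem ev0_pd_qc (hF : IsGW X F) (he : Even X.dim) (h1 : IsGenusOne F)
    (v : X.Prim) (i j : Fin (X.dim + 1)) (b : X.Prim) :
    ev0 (MvPowerSeries.pderiv (PowerSeries ℂ) (Sum.inr v)
      (phi X (qc F (Sum.inl i) (Sum.inl j) (Sum.inr b)))) =
      if v = b then MvPowerSeries.pderiv (PowerSeries ℂ) j (lamc h1 i) else 0 := by
  apply H333.ev0_pd_qc <;> assumption

end Vale.Agent.P269.G2
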