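import Vale.Agent.P269.G2I.BSpec1
import Vale.Agent.P269.G2I.H333.YD
import Vale.Agent.P269.G2I.Model1
import Vale.Agent.P269.G2I.Model2
import Vale.Agent.P269.G2I.XSpec1
/-!
# From the full small phase space to the top row: leaves
-/

namespace Vale.Agent.P269.G2

open Finset.HasAntidiagonal (antidiagonal)
open Polynomial (aeval)
open Vale.Agent.P269.CI
open Vale.Agent.P269.G1 (RR ser cst lamc Eu lam AA cq)
open Vale.Agent.P269.G2.H333 (ev0)
open Vale.Agent.P269.G2.H984 (RF rhoc dP)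

variable {X : CompleteIntersection} {F : ℕ → ℕ → List (Ins X) → ℂ}

/-- **[Yd]** -/
theorem ev0_EM_inl (hF : IsGW X F) (he : Even X.dim) (h1 : IsGenusOne F)
    (i : Fin (X.dim + 1)) : ev0 (phi X (EM hF he (Sum.inl i))) = Eu hF h1 i := by
  apply H333.ev0_EM_inl <;> assumption

/-- **[Yd]** -/
theorem ev0_EM_inr (hF : IsGW X F) (he : Even X.dim) (b : X.Prim) :
    ev0 (phi X (EM hF he (Sum.inr b))) = 0 := by
  apply H333.ev0_EM_inr <;> assumption

/-- **[Yd]** -/
theorem ev0_pd_EM_inl (hF : IsGW X F) (he : Even X.dim) (v : X.Prim) (i : Fin (X.dim + 1)) :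
    ev0 (MvPowerSeries.pderiv (PowerSeries ℂ) (Sum.inr v) (phi X (EM hF he (Sum.inl i)))) = 0 := by
  apply H333.ev0_pd_EM_inl <;> assumption

/-- **[Yd]** -/
theorem ev0_pd_EM_inr (hF : IsGW X F) (he : Even X.dim) (v b : X.Prim) :
    ev0 (MvPowerSeries.pderiv (PowerSeries ℂ) (Sum.inr v) (phi X (EM hF he (Sum.inr b)))) =
      if v = b then 1 - ((X.hodgeP v : ℕ) : RR X) else 0 := by
  apply H333.ev0_pd_EM_inr <;> assumption

end Vale.Agent.P269.G2
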