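import Vale.Agent.P269.G2I.BSpec1
import Vale.Agent.P269.G2I.H333.YE
import Vale.Agent.P269.G2I.Model1
import Vale.Agent.P269.G2I.Model2
import Vale.Agent.P269.G2I.XSpec1
/-!
# From the full small phase space to the top row: leaves
-/

namespace Vale.Agent.P269.G2

open Finset.HasAntidiagonal (antidiagonal)
open Polynomial (aeval)
open Vale.Agent.P269.CI
open Vale.Agent.P269.G1 (RR ser cst lamc Eu lam AA cq)
open Vale.Agent.P269.G2.H333 (ev0)
open Vale.Agent.P269.G2.H984 (RF rhoc dP)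

variable {X : CompleteIntersection} {F : ℕ → ℕ → List (Ins X) → ℂ}

/-- **[Ye]** from `H333.ev0_pow_inl` -/
theorem ev0_pow_inl (hF : IsGW X F) (he : Even X.dim) (h1 : IsGenusOne F) (m : ℕ)
    (i : Fin (X.dim + 1)) : ev0 (phi X ((EM hF he ^ m : AM hF he) (Sum.inl i))) =
      (Eu hF h1 ^ m : AA hF h1) i := by
  apply H333.Ye.ev0_pow_inl <;> assumption

/-- **[Ye]** from `H333.pow_inr` -/
theorem ev0_pow_inr (hF : IsGW X F) (he : Even X.dim) (h1 : IsGenusOne F) (m : ℕ)
    (b : X.Prim) : ev0 (phi X ((EM hF he ^ m : AM hF he) (Sum.inr b))) = 0 := by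
  apply H333.Ye.ev0_pow_inr <;> assumption

/-- **[Ye]** from `H333.ev0_pow_inr` -/
theorem ev0_pd_pow (hF : IsGW X F) (he : Even X.dim) (h1 : IsGenusOne F) (m : ℕ)
    (v b : X.Prim) : ev0 (MvPowerSeries.pderiv (PowerSeries ℂ) (Sum.inr v)
      (phi X ((EM hF he ^ m : AM hF he) (Sum.inr b)))) =
      if v = b then rhoc hF h1 m v else 0 := by
  apply H333.Ye.ev0_pd_pow <;> assumption

end Vale.Agent.P269.G2
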