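import Vale.Agent.P269.G2I.BSpec1
import Vale.Agent.P269.G2I.H521.Getzler
import Vale.Agent.P269.G2I.Model1
import Vale.Agent.P269.G2I.Model3
/-!
# The full small phase space in even dimension
-/

namespace Vale.Agent.P269.G2

open Finset.HasAntidiagonal (antidiagonal)
open Vale.Agent.P269.CI
open Vale.Agent.P269.G1 (toSer kk DD aK Big Frob)
open Vale.Agent.P269.H597 (coh)

variable {X : CompleteIntersection} {F : ℕ → ℕ → List (Ins X) → ℂ}

variable (hF : IsGW X F) (he : Even X.dim)

/-- **[M7]** Getzler's relation, by multilinearity from `h1.getzler` -/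
theorem frob_getzler (h1 : IsGenusOneFull F) : (frob hF he).Getzler := by
  apply H521.frob_getzler <;> assumption

end Vale.Agent.P269.G2
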