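import Vale.Agent.P269.G2I.BSpec1
import Vale.Agent.P269.G2I.H410.Unit
import Vale.Agent.P269.G2I.Model1
/-!
# The full small phase space in even dimension
-/

namespace Vale.Agent.P269.G2

open Finset.HasAntidiagonal (antidiagonal)
open Vale.Agent.P269.CI
open Vale.Agent.P269.G1 (toSer kk DD aK Big Frob)
open Vale.Agent.P269.H597 (coh)

variable {X : CompleteIntersection} {F : ℕ → ℕ → List (Ins X) → ℂ}

variable (hF : IsGW X F) (he : Even X.dim)

/-- **[Z2]** topological recursion, from `trrB` -/
theorem W_trr (hF : IsGW X F) (he : Even X.dim) (x a b : Ix X) (m n : ℕ) :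
    sr (E0 X) (cor F 0 [(x, 0), (a, m), (b, n)]) =
      ∑ i, ∑ j, SB (E0 X) F m i a * SB (E0 X) F n j b *
        sr (E0 X) (cor F 0 [(x, 0), (i, 0), (j, 0)]) := by
  apply H410.W_trr <;> assumption

/-- **[Z3]** unitarity: string equation and topological recursion, then a power series with
constant term one has a two-sided inverse -/
theorem SZ_STB (hF : IsGW X F) (he : Even X.dim) (p : ℕ) :
    ∑ e ∈ antidiagonal p, (-1) ^ e.2 * (SZ F e.1 * STB F e.2) =
      if p = 0 then 1 else 0 := by
  apply H410.SZ_STB <;> assumption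

end Vale.Agent.P269.G2
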