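import Vale.Agent.P269.G2I.BSpec1
import Vale.Agent.P269.G2I.H36.WEuler
import Vale.Agent.P269.G2I.Model1
import Vale.Agent.P269.G2I.Model2
/-!
# The full small phase space in even dimension
-/

namespace Vale.Agent.P269.G2

open Finset.HasAntidiagonal (antidiagonal)
open Vale.Agent.P269.CI
open Vale.Agent.P269.G1 (toSer kk DD aK Big Frob)
open Vale.Agent.P269.H597 (coh)

variable {X : CompleteIntersection} {F : ℕ → ℕ → List (Ins X) → ℂ}

variable (hF : IsGW X F) (he : Even X.dim)

/-- **[Z1]** Euler equation for two-point functions: grading and divisor equation -/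
theorem W_euler (a b : Ix X) (m n : ℕ) :
    ∑ i, EM hF he i * sr (E0 X) (cor F 0 [(i, 0), (a, m), (b, n)]) =
      (((m + n + 1 : ℕ) : ℂ) + mu X a + mu X b) • VB (E0 X) F (a, m) (b, n) +
      (if m = 0 then 0 else ∑ c, c1 X a c • VB (E0 X) F (c, m - 1) (b, n)) +
      (if n = 0 then 0 else ∑ c, c1 X b c • VB (E0 X) F (a, m) (c, n - 1)) +
      (if m = 0 ∧ n = 0 then cb (nx X) (∑ c, c1 X a c * pairing X c b) else 0) := by
  apply H36.W_euler <;> assumption

end Vale.Agent.P269.G2
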