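import Vale.Agent.P269.G2I.BSpec1
import Vale.Agent.P269.G2I.H780.ZB0
import Vale.Agent.P269.G2I.Model1
/-!
# The full small phase space in even dimension
-/

namespace Vale.Agent.P269.G2

open Finset.HasAntidiagonal (antidiagonal)
open Vale.Agent.P269.CI
open Vale.Agent.P269.G1 (toSer kk DD aK Big Frob)
open Vale.Agent.P269.H597 (coh)

variable {X : CompleteIntersection} {F : ℕ → ℕ → List (Ins X) → ℂ}

variable (hF : IsGW X F) (he : Even X.dim)

/-- **[ZB0]** -/
theorem mu_Rcl (X : CompleteIntersection) (n : ℕ) :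
    muB X n * RBcl X n = RBcl X n * muB X n + RBcl X n := by
  apply H780.ZB.mu_Rcl <;> assumption

/-- **[ZB0]** -/
theorem ee_zero_zero (X : CompleteIntersection) (n : ℕ) (m : ℤ) : ee X n m 0 0 = 1 := by
  apply H780.ZB.ee_zero_zero <;> assumption

/-- **[ZB0]** -/
theorem ee_zero_succ (X : CompleteIntersection) (n : ℕ) (m : ℤ) (i : ℕ) :
    ee X n m 0 (i + 1) = 0 := by
  apply H780.ZB.ee_zero_succ <;> assumption

/-- **[ZB0]** -/
theorem ee_succ_zero (X : CompleteIntersection) (n : ℕ) (m : ℤ) (K : ℕ) : ee X n m (K + 1) 0 =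
    (muB X n + kk (RB n) ((m : ℚ) + 1 / 2 + K)) * ee X n m K 0 := by
  apply H780.ZB.ee_succ_zero <;> assumption

/-- **[ZB0]** -/
theorem ee_succ_succ (X : CompleteIntersection) (n : ℕ) (m : ℤ) (K i : ℕ) :
    ee X n m (K + 1) (i + 1) = ee X n m K i +
      (muB X n + kk (RB n) ((m : ℚ) + 1 / 2 + K)) * ee X n m K (i + 1) := by
  apply H780.ZB.ee_succ_succ <;> assumption

end Vale.Agent.P269.G2
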