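import Vale.Agent.P269.G2I.BSpec1
import Vale.Agent.P269.G2I.H937.Z4
import Vale.Agent.P269.G2I.Model1
import Vale.Agent.P269.G2I.Model2
/-!
# The full small phase space in even dimension
-/

namespace Vale.Agent.P269.G2

open Finset.HasAntidiagonal (antidiagonal)
open Vale.Agent.P269.CI
open Vale.Agent.P269.G1 (toSer kk DD aK Big Frob)
open Vale.Agent.P269.H597 (coh)

variable {X : CompleteIntersection} {F : ℕ → ℕ → List (Ins X) → ℂ}

variable (hF : IsGW X F) (he : Even X.dim)

/-- **[Z4]** `g_1 = 1`, `g_2 = 0` on the small phase space -/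
theorem gB_one (hF : IsGW X F) (he : Even X.dim) :
    gB (E0 X) F 1 = (1 : AM hF he) := by
  apply H937.gB_one <;> assumption

/-- **[Z4]** -/
theorem gB_two : gB (E0 X) F 2 = 0 := by
  apply H937.gB_two <;> assumption

/-- **[Z4]** from `g_zero` -/
theorem calE_eq (hF : IsGW X F) (he : Even X.dim) : calE (E0 X) F = EM hF he := by
  apply H937.calE_eq <;> assumption

/-- **[Z4]** from `g_zero` or `CB_U` -/
theorem UB_eq (hF : IsGW X F) (he : Even X.dim) :
    UB (E0 X) F = QA.mat _ (EM hF he) := by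
  apply H937.UB_eq <;> assumption

/-- **[Z4]** from `SB_euler` and `calE_eq` -/
theorem SZ_euler (n : ℤ) : QA.mat _ (EM hF he) * SZ F (n - 1) =
    kk (RM X) n * SZ F n + SZ F n * muB X (nx X) -
      muB X (nx X) * SZ F n + SZ F (n - 1) * RBcl X (nx X) := by
  apply H937.SZ_euler <;> assumption

end Vale.Agent.P269.G2
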