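import Vale.Agent.P269.G2I.BSpec1
import Vale.Agent.P269.G2I.H780.Loop2
import Vale.Agent.P269.G2I.Model1
import Vale.Agent.P269.G2I.Model2
/-!
# The full small phase space in even dimension
-/

namespace Vale.Agent.P269.G2

open Finset.HasAntidiagonal (antidiagonal)
open Vale.Agent.P269.CI
open Vale.Agent.P269.G1 (toSer kk DD aK Big Frob)
open Vale.Agent.P269.H597 (coh)

variable {X : CompleteIntersection} {F : ℕ → ℕ → List (Ins X) → ℂ}

variable (hF : IsGW X F) (he : Even X.dim)

/-- **[ZF]** the loop term, from `W_euler`, `W_trr` and `conj` at `c = -1` -/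
theorem loop_eq (q : ℕ) : ((q : ℕ) : RM X) * loopB (E0 X) F q =
    - strB X (nx X) (QA.mat _ (EM hF he) *
      DD (RM X) (QA.mat _ (EM hF he)) (muB X (nx X)) (-1) (q + 1) 1) := by
  apply H780.Lp.loop_eq <;> assumption

end Vale.Agent.P269.G2
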