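import Vale.Agent.P269.G2I.BSpec1
import Vale.Agent.P269.G2I.H780.DC2
/-!
# [G2-D] all insertions, even dimension: leaves
-/

namespace Vale.Agent.P269.G2

open Finset.HasAntidiagonal (antidiagonal)
open Vale.Agent.P269.CI
open Vale.Agent.P269.G1 (toSer Sym Big)
open Vale.Agent.P269.H597 (coh)

variable {X : CompleteIntersection} {n : ℕ} (E : Fam X n) {F : ℕ → ℕ → List (Ins X) → ℂ}

/-! ### the vectors `l_k τ` -/

/-- **[DC2]** -/
theorem cB_high (k N p : ℕ) (hN : ∀ i, (E.e i).2 + k + 2 ≤ N) (hN2 : k + 3 ≤ N)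
    (hp : N ≤ p + 1) : cB E F N k p = 0 := by
  apply H780.H856.cB_high <;> assumption

/-- **[DC2]** `𝒜_0` -/
theorem cB_zero (hF : IsGW X F) (he : Even X.dim) (k N : ℕ)
    (hN : ∀ i, (E.e i).2 + k + 2 ≤ N) (hN2 : k + 3 ≤ N) :
    ∑ p ∈ Finset.range N, actB X n (SB E F p) (cB E F N k p) =
      - actB X n (UB E F ^ (k + 1)) (gB E F 1) := by
  apply H780.H856.cB_zero <;> assumption

/-- **[DC2]** `𝒜_1` -/
theorem cB_one (hF : IsGW X F) (he : Even X.dim) (k N : ℕ)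
    (hN : ∀ i, (E.e i).2 + k + 2 ≤ N) (hN2 : k + 3 ≤ N) :
    ∑ p ∈ Finset.range N, actB X n (SB E F p) (cB E F N k (p + 1)) =
      - ((∑ e ∈ antidiagonal (k + 1), if e.1 = 0 then 0 else
        actB X n (UB E F ^ (e.1 - 1) * muc X n (3 / 2) * UB E F ^ e.2) (gB E F 1)) +
        actB X n (UB E F ^ (k + 1)) (gB E F 2)) := by
  apply H780.H856.cB_one <;> assumption

end Vale.Agent.P269.G2
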