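import Vale.Agent.P269.G2I.BSpec1
import Vale.Agent.P269.G2I.H598.VirSmall
import Vale.Agent.P269.G2I.Model1
import Vale.Agent.P269.G2I.Model3
/-!
# The full small phase space in even dimension
-/

namespace Vale.Agent.P269.G2

open Finset.HasAntidiagonal (antidiagonal)
open Vale.Agent.P269.CI
open Vale.Agent.P269.G1 (toSer kk DD aK Big Frob)
open Vale.Agent.P269.H597 (coh)

variable {X : CompleteIntersection} {F : ℕ → ℕ → List (Ins X) → ℂ}

variable (hF : IsGW X F) (he : Even X.dim)

/-- **[ZH]** the genus-one Virasoro constraint on the small phase space: from `vir_big`,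
`loop_eq`, `loop_cyclic`, `UB_eq`, `gB_one`, `gB_two` -/
theorem vir_small (h1 : IsGenusOneFull F) (k : ℕ) :
    sr (E0 X) (fun d L => virasoro X F (k + 1) 1 d L) = - (frob hF he).de (k + 1) := by
  apply H598.vir_small <;> assumption

end Vale.Agent.P269.G2
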