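import Vale.Agent.P269.G2I.BSpec1
import Vale.Agent.P269.G2I.H980.ChiPsi
import Vale.Agent.P269.G2I.Model1
import Vale.Agent.P269.G2I.Model3
import Vale.Agent.P269.G2I.XSpec1
/-!
# From the full small phase space to the top row: leaves
-/

namespace Vale.Agent.P269.G2

open Finset.HasAntidiagonal (antidiagonal)
open Polynomial (aeval)
open Vale.Agent.P269.CI
open Vale.Agent.P269.G1 (RR ser cst lamc Eu lam AA cq)
open Vale.Agent.P269.G2.H333 (ev0)
open Vale.Agent.P269.G2.H984 (RF rhoc dP)

variable {X : CompleteIntersection} {F : ℕ → ℕ → List (Ins X) → ℂ}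

/-- **[Yg]** from `H980.matrix_skew`: the pairing is symmetric and invariant, `μ` is skew -/
theorem chi_psi (hF : IsGW X F) (he : Even X.dim) :
    (chi hF he).sum (fun n c => c • (frob hF he).psi n) = 0 := by
  apply H980.chi_psi <;> assumption

end Vale.Agent.P269.G2
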