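import Vale.Agent.P269.G2I.BSpec1
import Vale.Agent.P269.G2I.H6.Chi
import Vale.Agent.P269.G2I.Model1
import Vale.Agent.P269.G2I.Model2
import Vale.Agent.P269.G2I.Model3
import Vale.Agent.P269.G2I.XSpec1
/-!
# From the full small phase space to the top row: leaves
-/

namespace Vale.Agent.P269.G2

open Finset.HasAntidiagonal (antidiagonal)
open Polynomial (aeval)
open Vale.Agent.P269.CI
open Vale.Agent.P269.G1 (RR ser cst lamc Eu lam AA cq)
open Vale.Agent.P269.G2.H333 (ev0)
open Vale.Agent.P269.G2.H984 (RF rhoc dP)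

variable {X : CompleteIntersection} {F : ℕ → ℕ → List (Ins X) → ℂ}

/-- **[Yf]** -/
theorem aeval_chi (hF : IsGW X F) (he : Even X.dim) : aeval (EM hF he) (chi hF he) = 0 := by
  apply H6.aeval_chi <;> assumption

/-- **[Yh]** from `chi_psi`: apply to the unit -/
theorem chi_phi (hF : IsGW X F) (he : Even X.dim) :
    (chi hF he).sum (fun n c => c • (frob hF he).phi n) = 0 := by
  apply H6.chi_phi <;> assumption

end Vale.Agent.P269.G2
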