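import Vale.Agent.P269.G2I.BSpec1
import Vale.Agent.P269.G2I.H860.One
import Vale.Agent.P269.G2I.Model1
import Vale.Agent.P269.G2I.Model2
import Vale.Agent.P269.G2I.Model3
/-!
# The full small phase space in even dimension
-/

namespace Vale.Agent.P269.G2

open Finset.HasAntidiagonal (antidiagonal)
open Vale.Agent.P269.CI
open Vale.Agent.P269.G1 (toSer kk DD aK Big Frob)
open Vale.Agent.P269.H597 (coh)

variable {X : CompleteIntersection} {F : ℕ → ℕ → List (Ins X) → ℂ}

variable (hF : IsGW X F) (he : Even X.dim)

/-- **[M9]** `om_1` is constant and `de_1 = 0` (`G_E` and the formula of Libgober and Wood) -/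
theorem frob_om_one (x : AM hF he) : (frob hF he).der x ((frob hF he).om 1) = 0 := by
  apply H860.frob_om_one <;> assumption

/-- **[M9]** -/
theorem frob_de_one (hX : 3 ≤ X.dim) : (frob hF he).de 1 = 0 := by
  apply H860.frob_de_one <;> assumption

end Vale.Agent.P269.G2
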