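import Vale.Agent.P269.G2I.BSpec1
import Vale.Agent.P269.G2I.H984.Wt
import Vale.Agent.P269.G2I.Model1
import Vale.Agent.P269.G2I.XSpec1
/-!
# From the full small phase space to the top row: leaves
-/

namespace Vale.Agent.P269.G2

open Finset.HasAntidiagonal (antidiagonal)
open Polynomial (aeval)
open Vale.Agent.P269.CI
open Vale.Agent.P269.G1 (RR ser cst lamc Eu lam AA cq)
open Vale.Agent.P269.G2.H333 (ev0)
open Vale.Agent.P269.G2.H984 (RF rhoc dP)

variable {X : CompleteIntersection} {F : ℕ → ℕ → List (Ins X) → ℂ}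

/-- **[Yl]** dimension count (the sum of the two gradings) -/
theorem vir_weight (hF : IsGW X F) (p d : ℕ) (w : List X.Prim)
    (h : 2 * (index X * d) ≠ 2 * (p : ℤ) + w.length * ((X.dim : ℤ) - 2)) :
    virasoro X F (p + 1) 1 d (w.map fun v => (Sum.inr v, 0)) = 0 := by
  apply H984.vir_weight <;> assumption

/-- **[Ym]** from `mono4` -/
theorem vir_odd (h1 : IsGenusOneFull F) (h3 : 3 ≤ excess X) (p d : ℕ) (w : List X.Prim)
    (hw : w.length % 2 = 1) :
    virasoro X F (p + 1) 1 d (w.map fun v => (Sum.inr v, 0)) = 0 := by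
  apply H984.vir_odd <;> assumption

end Vale.Agent.P269.G2
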