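import Vale.Agent.P269.G2I.BSpec1
import Vale.Agent.P269.G2I.CSpec1
import Vale.Agent.P269.G2I.H660.CasInst
import Vale.Agent.P269.G2I.Model1
import Vale.Agent.P269.G2I.Model3
import Vale.Agent.P269.G2I.XSpec1
/-!
# Cubic hypersurfaces of even dimension: definitions and leaves
-/

namespace Vale.Agent.P269.CI

variable {X : CompleteIntersection}

end Vale.Agent.P269.CI

namespace Vale.Agent.P269.G2

open Finset.HasAntidiagonal (antidiagonal)
open Vale.Agent.P269.CI
open Vale.Agent.P269.G1 (RR ser cst lamc Eu lam AA cq)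
open Vale.Agent.P269.G2.H333 (ev0)
open Vale.Agent.P269.G2.H984 (RF rhoc dP aM)

variable {X : CompleteIntersection} {F : ℕ → ℕ → List (Ins X) → ℂ}

/-- **[J1]** from `H861.J1` -/
theorem cas_de_two (hF : IsGW X F) (he : Even X.dim) (h1 : IsGenusOneFull F) :
    (frob hF he).der (cas hF he) ((frob hF he).de 2) = 0 := by
  apply H660.cas_de_two <;> assumption

end Vale.Agent.P269.G2
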