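import Vale.Agent.P269.G2I.BSpec1
import Vale.Agent.P269.G2I.CSpec1
import Vale.Agent.P269.G2I.H598.OgEu
import Vale.Agent.P269.G2I.Model1
import Vale.Agent.P269.G2I.XSpec1
/-!
# Cubic hypersurfaces of even dimension: definitions and leaves
-/

namespace Vale.Agent.P269.CI

variable {X : CompleteIntersection}

end Vale.Agent.P269.CI

namespace Vale.Agent.P269.G2

open Finset.HasAntidiagonal (antidiagonal)
open Vale.Agent.P269.CI
open Vale.Agent.P269.G1 (RR ser cst lamc Eu lam AA cq)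
open Vale.Agent.P269.G2.H333 (ev0)
open Vale.Agent.P269.G2.H984 (RF rhoc dP aM)

variable {X : CompleteIntersection} {F : ℕ → ℕ → List (Ins X) → ℂ}

/-- **[J2a]** the coefficient of `h^r` in the powers of the Euler field at the origin -/
theorem og_Eu_last (hF : IsGW X F) (h1 : IsGenusOne F) (hX : 4 ≤ X.dim) (hd : X.degs = [3])
    (k : ℕ) (hk : k ≤ X.dim) : og ((Eu hF h1 ^ k : AA hF h1) (Fin.last X.dim)) =
      if k = X.dim then PowerSeries.C (((X.dim : ℂ) - 1) ^ X.dim) else 0 := by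
  apply H598.OgEu.og_Eu_last <;> assumption

/-- **[J2b]** `E ^ (r + 1) = 27 ν ^ (r - 1) q E ^ 2` at the origin -/
theorem og_Eu_rel (hF : IsGW X F) (h1 : IsGenusOne F) (hX : 4 ≤ X.dim) (hd : X.degs = [3])
    (k : ℕ) (j : Fin (X.dim + 1)) : og ((Eu hF h1 ^ (k + X.dim + 1) : AA hF h1) j) =
      PowerSeries.C (27 * ((X.dim : ℂ) - 1) ^ (X.dim - 1)) * PowerSeries.X *
        og ((Eu hF h1 ^ (k + 2) : AA hF h1) j) := by
  apply H598.OgEu.og_Eu_rel <;> assumption

end Vale.Agent.P269.G2
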