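import Vale.Agent.P269.G2I.BSpec1
import Vale.Agent.P269.G2I.CSpec1
import Vale.Agent.P269.G2I.H598.OgTrace
import Vale.Agent.P269.G2I.Model1
import Vale.Agent.P269.G2I.Model2
import Vale.Agent.P269.G2I.XSpec1
/-!
# Cubic hypersurfaces of even dimension: definitions and leaves
-/

namespace Vale.Agent.P269.CI

variable {X : CompleteIntersection}

end Vale.Agent.P269.CI

namespace Vale.Agent.P269.G2

open Finset.HasAntidiagonal (antidiagonal)
open Vale.Agent.P269.CI
open Vale.Agent.P269.G1 (RR ser cst lamc Eu lam AA cq)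
open Vale.Agent.P269.G2.H333 (ev0)
open Vale.Agent.P269.G2.H984 (RF rhoc dP aM)

variable {X : CompleteIntersection} {F : ℕ → ℕ → List (Ins X) → ℂ}

/-- **[J2c]** the trace of the multiplication by `E ^ ν` at the origin, `ν = r - 1` -/
theorem og_trace (hF : IsGW X F) (he : Even X.dim) (h1 : IsGenusOne F) (hX : 4 ≤ X.dim)
    (hd : X.degs = [3]) :
    og (ev0 (phi X (Matrix.trace (QA.mat (consts hF he) (EM hF he ^ (X.dim - 1)))))) =
      PowerSeries.C (27 * ((X.dim : ℂ) - 1) ^ X.dim) * PowerSeries.X := by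
  apply H598.OgTrace.og_trace <;> assumption

end Vale.Agent.P269.G2
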