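import Vale.Agent.P269.G2I.BSpec1
import Vale.Agent.P269.G2I.CSpec1
import Vale.Agent.P269.G2I.H980.OgCas
import Vale.Agent.P269.G2I.Model1
import Vale.Agent.P269.G2I.XSpec1
/-!
# Cubic hypersurfaces of even dimension: definitions and leaves
-/

namespace Vale.Agent.P269.CI

variable {X : CompleteIntersection}

end Vale.Agent.P269.CI

namespace Vale.Agent.P269.G2

open Finset.HasAntidiagonal (antidiagonal)
open Vale.Agent.P269.CI
open Vale.Agent.P269.G1 (RR ser cst lamc Eu lam AA cq)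
open Vale.Agent.P269.G2.H333 (ev0)
open Vale.Agent.P269.G2.H984 (RF rhoc dP aM)

variable {X : CompleteIntersection} {F : ℕ → ℕ → List (Ins X) → ℂ}

/-- **[J2d]** `η(cas, z) = tr (z *)` at the origin; `z = 1` and `z = E ^ ν` -/
theorem og_cas (hF : IsGW X F) (he : Even X.dim) (h1 : IsGenusOneFull F) (hX : 4 ≤ X.dim)
    (hd : X.degs = [3]) : ∃ x : Fin (X.dim + 1) → PowerSeries ℂ,
    (∀ j : Fin (X.dim + 1), og (ev0 (phi X (cas hF he (Sum.inl j)))) =
      ∑ k : Fin (X.dim + 1), x k * og ((Eu hF h1.toOne ^ (k : ℕ) : AA hF h1.toOne) j)) ∧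
    x 1 = PowerSeries.C (-9 * (np X + 2) / ((X.dim : ℂ) - 1)) * PowerSeries.X ∧
    x (Fin.last X.dim) =
      PowerSeries.C ((np X + X.dim + 1) / (3 * ((X.dim : ℂ) - 1) ^ X.dim)) := by
  apply H980.og_cas <;> assumption

end Vale.Agent.P269.G2
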