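import Vale.Agent.P269.G2I.BSpec1
import Vale.Agent.P269.G2I.H302.DF
/-!
# [G2-D] all insertions, even dimension: leaves
-/

namespace Vale.Agent.P269.G2

open Finset.HasAntidiagonal (antidiagonal)
open Vale.Agent.P269.CI
open Vale.Agent.P269.G1 (toSer Sym Big)
open Vale.Agent.P269.H597 (coh)

variable {X : CompleteIntersection} {n : ℕ} (E : Fam X n) {F : ℕ → ℕ → List (Ins X) → ℂ}

/-! ### the vectors `l_k τ` -/

/-- **[DF]** from `vir_big`, `Big.reduce`, `pderiv_VB`, `descend_le` (H980/DescendLe): the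
constraints with at most `N0` primitive insertions -/
theorem vir_descend (hF : IsGW X F) (he : Even X.dim) (h1 : Trr1 F) (hm : Mono1 F) (k N0 : ℕ)
    (h : ∀ d (L : List (Ix X)), (L.countP fun a => a.isRight) ≤ N0 →
      virasoro X F (k + 1) 1 d (L.map fun a => (a, 0)) = 0)
    (d : ℕ) (L : List (Ins X)) (hL : (L.countP fun x => x.1.isRight) ≤ N0) :
    virasoro X F (k + 1) 1 d L = 0 := by
  apply H302.vir_descend <;> assumption

end Vale.Agent.P269.G2
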