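import Vale.Agent.P269.G2I.BSpec1
import Vale.Agent.P269.G2I.CSpec1
import Vale.Agent.P269.G2I.H521.COrg
import Vale.Agent.P269.G2I.Model1
import Vale.Agent.P269.G2I.XSpec1
/-!
# Cubic hypersurfaces of even dimension: definitions and leaves
-/

namespace Vale.Agent.P269.CI

variable {X : CompleteIntersection}

end Vale.Agent.P269.CI

namespace Vale.Agent.P269.G2

open Finset.HasAntidiagonal (antidiagonal)
open Vale.Agent.P269.CI
open Vale.Agent.P269.G1 (RR ser cst lamc Eu lam AA cq)
open Vale.Agent.P269.G2.H333 (ev0)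
open Vale.Agent.P269.G2.H984 (RF rhoc dP aM)

variable {X : CompleteIntersection} {F : ℕ → ℕ → List (Ins X) → ℂ}

/-- **[J5]** the relation at the origin: `dl_field_ev0` for `cas` and for the powers of `E` -/
theorem cubic_origin (hF : IsGW X F) (he : Even X.dim) (h1 : IsGenusOneFull F)
    (hX : 4 ≤ X.dim) (hd : X.degs = [3]) (hc : IsCubic F) (w : List X.Prim) (hw : w ≠ [])
    (h : ∀ w' : List X.Prim, w'.length < w.length → ∀ n,
      ev0 (dP w' (phi X (aM hF he n))) = 0) :
    MvPowerSeries.constantCoeff (dP w (phi X (aM hF he 1))) = 0 := by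
  apply H521.CO.cubic_origin <;> assumption

end Vale.Agent.P269.G2
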