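import Vale.Agent.P269.G2I.BSpec1
import Vale.Agent.P269.G2I.H980.ChiEv
import Vale.Agent.P269.G2I.Model1
import Vale.Agent.P269.G2I.XSpec1
/-!
# From the full small phase space to the top row: leaves
-/

namespace Vale.Agent.P269.G2

open Finset.HasAntidiagonal (antidiagonal)
open Polynomial (aeval)
open Vale.Agent.P269.CI
open Vale.Agent.P269.G1 (RR ser cst lamc Eu lam AA cq)
open Vale.Agent.P269.G2.H333 (ev0)
open Vale.Agent.P269.G2.H984 (RF rhoc dP)

variable {X : CompleteIntersection} {F : ℕ → ℕ → List (Ins X) → ℂ}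

/-- **[Yk]** from `H980.charpoly_block`, `H980.charpoly_eq`, `pow_basis` -/
theorem chi_ev0 (hF : IsGW X F) (he : Even X.dim) (h1 : IsGenusOne F) (hi : index X ≠ 0)
    (P : Polynomial (RR X)) (hm : P.Monic) (hd : P.natDegree = X.dim + 1)
    (hP : aeval (Eu hF h1) P = 0) (v : X.Prim) :
    ((chi hF he).map (phi X)).map ev0 = P * (Polynomial.X -
      Polynomial.C ((lam hF h1 (Eu hF h1)) v)) ^ Fintype.card X.Prim := by
  apply H980.chi_ev0 <;> assumption

end Vale.Agent.P269.G2
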