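import Vale.Agent.P269.G2I.BSpec1
import Vale.Agent.P269.G2I.H984.SmallLe
import Vale.Agent.P269.G2I.Model1
import Vale.Agent.P269.G2I.XSpec1
/-!
# From the full small phase space to the top row: leaves
-/

namespace Vale.Agent.P269.G2

open Finset.HasAntidiagonal (antidiagonal)
open Polynomial (aeval)
open Vale.Agent.P269.CI
open Vale.Agent.P269.G1 (RR ser cst lamc Eu lam AA cq)
open Vale.Agent.P269.G2.H333 (ev0)
open Vale.Agent.P269.G2.H984 (RF rhoc dP)

variable {X : CompleteIntersection} {F : ℕ → ℕ → List (Ins X) → ℂ}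

/-- **[Yn]** the full small phase space, at most `N0` primitive insertions: from `top_le`,
`closure`, `key`, `vir_small` -/
theorem virasoro_small_le (hF : IsGW X F) (he : Even X.dim) (h1 : IsGenusOneFull F)
    (hX : 3 ≤ X.dim) (hm : 2 ≤ excess X) (hi : 2 ≤ index X)
    (h0 : ∀ k d (L : List (Fin (X.dim + 1))), virasoro X F (k + 1) 1 d (L.map (hpow X)) = 0)
    (N0 : ℕ) (hN : ∀ N p d : ℕ, 1 ≤ N → N ≤ N0 → 1 ≤ p → p + 1 ≤ excess X →
      (3 ≤ excess X → N % 2 = 0) → 2 * (index X * d) ≠ 2 * (p : ℤ) + N * ((X.dim : ℤ) - 2))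
    (k d : ℕ) (L : List (Ix X)) (hL : (L.countP fun a => a.isRight) ≤ N0) :
    virasoro X F (k + 1) 1 d (L.map fun a => (a, 0)) = 0 := by
  apply H984.virasoro_small_le <;> assumption

end Vale.Agent.P269.G2
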